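import Vale.Agent.P354CB.Ez

/-!
A first boundary point of a common development.
-/

open Set Filter Topology

namespace Vale.Agent.P354CB29

open Vale.Agent.P354n Vale.Agent.P354CB

/-- A compact set on which the lower sets of a preorder are closed has a minimal element. -/
theorem exists_min {Y : Type} [TopologicalSpace Y] {r : Y → Y → Prop} (rf : ∀ a, r a a)
    (tr : ∀ {a b c}, r a b → r b c → r a c) {A : Set Y} (hA : IsCompact A) (ne : A.Nonempty)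
    (cl : ∀ c, IsClosed (A ∩ {x | r x c})) : ∃ q ∈ A, ∀ x ∈ A, r x q → r q x := by
  have := ne.to_subtype
  obtain ⟨q, hq⟩ := exists_maximal_of_nonempty_chains_bounded (r := fun a b : A => r b a)
    (fun c hc hn => by
      have := hn.to_subtype
      obtain ⟨x, hx⟩ := IsCompact.nonempty_iInter_of_directed_nonempty_isCompact_isClosed
        (fun a : c => A ∩ {x | r x a.1}) (fun a b => by
          rcases eq_or_ne a.1 b.1 with e | e
          · exact ⟨a, Subset.rfl, fun x k => ⟨k.1, e ▸ k.2⟩⟩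
          · rcases hc a.2 b.2 e with h | h
            · exact ⟨b, fun x k => ⟨k.1, tr k.2 h⟩, Subset.rfl⟩
            · exact ⟨a, Subset.rfl, fun x k => ⟨k.1, tr k.2 h⟩⟩)
        (fun a => ⟨a.1, a.1.2, rf _⟩) (fun a => hA.of_isClosed_subset (cl _) inter_subset_left)
        fun a => cl _
      rw [mem_iInter] at hx
      exact ⟨⟨x, (hx (Classical.arbitrary c)).1⟩, fun a ha => (hx ⟨a, ha⟩).2⟩)
    fun h k => tr k h
  exact ⟨q, q.2, fun x hx h => hq ⟨x, hx⟩ h⟩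

/-- **KA1.** -/
theorem ka1 (Z : L0) : KA1 := by
  intro M N S S' U ψ φ P p p' hp hU hF
  have L := Z.l1
  have hM := P.gM.st
  have hN := P.gN.st
  have G := Z.l2.g1 M S P.gM.toGH0
  have O := Z.l2.g2 M S P.gM.toGH0
  obtain ⟨q, ⟨⟨q1, q2⟩, q3⟩, hq⟩ := exists_min (r := Le M) (fun _ => Le.rfl) Le.trans
    ((O.cpt p).diff P.hU.op) ⟨p, ⟨L.fu_pa hM G hF, Le.rfl⟩, hU⟩ fun c => by
      have := (((O.cpt p).diff P.hU.op).inter (O.cpt c)).isClosed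
      rwa [show _ ∩ {x | x ∉ Pa M S ∧ Le M x c} = _ ∩ {x | Le M x c} from
        ext fun x => ⟨fun k => ⟨k.1, k.2.2⟩, fun k => ⟨k.1, k.1.1.1, k.2⟩⟩] at this
  obtain ⟨z', hz'⟩ := closure_nonempty_iff.1 ⟨_, L.b.nearF hN p'⟩
  obtain ⟨z, hz⟩ := closure_nonempty_iff.1 ⟨_, L.b.nearF hM p⟩
  have near : ∀ w, LL M w q → ∃ x ∈ U, LL M w x ∧ x ∈ Fu M S ∧ LL M x z ∧ LL N (ψ x) z' :=
    fun w hw => by
      obtain ⟨_, k, x, hx, rfl⟩ := mem_closure_iff.1 hp _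
        (((L.opF hM w).inter ((L.opFu hM S).inter (L.opP hM z))).prod (L.opP hN z'))
        ⟨⟨q2.2 w hw, hF, hz⟩, hz'⟩
      exact ⟨x, hx, k.1.1, k.1.2.1, k.1.2.2, k.2⟩
  have key : ∀ w, ∀ x ∈ U, LL M w x → w ∉ Pa M S → LL N (ψ x) z' →
      w ∈ U ∧ ψ w ∉ Pa N S' ∧ Le N (ψ w) z' := fun w x hx hw h1 h2 => by
    have h3 := P.hU.dn x hx w hw h1
    obtain ⟨c, c1, rfl, rfl⟩ := hw
    exact ⟨h3, fun k => h1 ((P.side _ h3).2.2.2 k), L.le hN (L.trans hN ⟨_,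
      Z.k1.curve hM hN uniqueDiffOn_Icc_zero_one c1 fun t ht =>
        (P.lm _ (L.in_dn hM P.hU c1 h1 hx ht)).1, rfl, rfl⟩ h2)⟩
  have K := (Z.l2.g2 N S' P.gN.toGH0).cpt z'
  have nb := mem_closure_iff_nhdsWithin_neBot.1 (L.b.nearP hM q)
  let F := Ultrafilter.of (𝓝[{a | LL M a q}] q)
  have F1 : (F : Filter M.pt) ≤ 𝓝 q := (Ultrafilter.of_le _).trans nhdsWithin_le_nhds
  have F2 : ∀ᶠ w in (F : Filter M.pt), LL M w q := Ultrafilter.of_le _ self_mem_nhdsWithin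
  have qF : q ∈ Fu M S := by
    refine ((G.tri q).resolve_left fun qS => q3 ?_).resolve_right q1
    have : ∀ w, LL M w q → ∃ s, s ∈ U ∩ S ∧ Le M w s ∧ (s ∉ Pa M S ∧ Le M s z) ∧
        ψ s ∉ Pa N S' ∧ Le N (ψ s) z' := fun w hw => by
      obtain ⟨x, hx, ⟨c, c1, rfl, rfl⟩, x2, x3, x4⟩ := near w hw
      obtain ⟨t, ht, hs⟩ := L.cross hM G c1 (fun k => L.fu_pa hM G k ⟨q, qS, hw⟩)
        (L.fu_pa hM G x2)
      have s1 := L1.s_fu G hs
      have s2 : LL M (c t) (c 1) := L.b.ll_cv hM c1 (Icc_subset_Icc_left ht.1)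
        (ht.2.lt_of_ne fun e => s1.1 (e ▸ x2))
      have s3 := key _ _ hx s2 s1.2 x4
      refine ⟨c t, ⟨s3.1, hs⟩, ?_, ⟨s1.2, L.le hM (L.trans hM s2 x3)⟩, s3.2⟩
      rcases ht.1.eq_or_lt with rfl | l
      · exact Le.rfl
      · exact L.le hM (L.b.ll_cv hM c1 (Icc_subset_Icc_right ht.2) l)
    choose! s s1 s2 s3 s4 using this
    obtain ⟨⟨a, a'⟩, -, ha⟩ := ((O.cpt z).prod K).ultrafilter_le_nhds
      (F.map fun w => (s w, ψ (s w))) (le_principal_iff.2 (F2.mono fun w k => ⟨s3 w k, s4 w k⟩))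
    have ta : Tendsto s F (𝓝 a) := (continuous_fst.tendsto (a, a')).comp ha
    have aS : a ∈ S := (L.closed_s hM G).mem_of_tendsto ta (F2.mono fun w k => (s1 w k).2)
    have e := (Z.l2.g2 (rev M) S (L.b.gh0_rev P.gM.toGH0)).cl.mem_of_tendsto
      (ta.prodMk_nhds (tendsto_id'.2 F1)) (F2.mono fun w k =>
        ⟨(L.b.pa_rev hM S).symm ▸ (L1.s_fu G (s1 w k).2).1, (L.b.le_rev hM).2 (s2 w k)⟩)
    obtain rfl := P.gM.ac q qS a aS ((L.b.le_rev hM).1 e.2)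
    exact P.edge q qS a' (mem_closure_of_tendsto ha (F2.mono fun w k => ⟨s w, s1 w k, rfl⟩))
  have F3 : ∀ᶠ w in (F : Filter M.pt), w ∈ U ∧ ψ w ∉ Pa N S' ∧ Le N (ψ w) z' :=
    (F2.and (F1 ((L.opFu hM S).mem_nhds qF))).mono fun w k => by
      obtain ⟨x, hx, x1, -, -, x4⟩ := near w k.1
      exact key w x hx x1 (L.fu_pa hM G k.2) x4
  obtain ⟨q', -, hq'⟩ := K.ultrafilter_le_nhds (F.map ψ) (le_principal_iff.2 (F3.mono fun w k => k.2))
  refine ⟨q, q', mem_closure_of_tendsto ((tendsto_id'.2 F1).prodMk_nhds hq')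
    (F3.mono fun w k => ⟨w, k.1, rfl⟩), q3, qF, fun x x1 x2 x3 => by_contra fun x4 => ?_⟩
  exact x3 (O.anti x q x2 x1 (hq x ⟨⟨x2, x1.trans q2⟩, x4⟩ x1))

end Vale.Agent.P354CB29
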